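import Mathlib

/-!
# Power substitution in area integrals
-/

open MeasureTheory Set Metric Filter Topology

noncomputable section

namespace Vale.Agent.P247.H663.LWA

/-- the fundamental sector of `z ↦ z ^ q` in the punctured ball -/
def sec (q : ℕ) (R : ℝ) : Set ℂ :=
  {z | z ∈ ball (0 : ℂ) R ∧ z ≠ 0 ∧ -(Real.pi / q) < z.arg ∧ z.arg ≤ Real.pi / q}

theorem sec_meas (q : ℕ) (R : ℝ) : MeasurableSet (sec q R) := by
  have h1 : sec q R = ball (0 : ℂ) R ∩ ({0}ᶜ ∩ (Complex.arg ⁻¹' Ioc (-(Real.pi / q)) (Real.pi / q))) := by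
    ext z
    simp [sec]
  rw [h1]
  exact measurableSet_ball.inter ((measurableSet_singleton _).compl.inter
    (Complex.measurable_arg measurableSet_Ioc))

theorem sec_inj {q : ℕ} (hq : q ≠ 0) (R : ℝ) : InjOn (fun z : ℂ => z ^ q) (sec q R) := by
  intro z hz w hw h
  have h1 := Complex.pow_cpow_nat_inv hq hz.2.2.1 hz.2.2.2
  have h2 := Complex.pow_cpow_nat_inv hq hw.2.2.1 hw.2.2.2
  simp only at h
  rw [← h1, ← h2, h]

theorem root_mem {q : ℕ} (hq : q ≠ 0) {R : ℝ} (hR : 0 < R) {w : ℂ} (hw : w ≠ 0)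
    (hwR : ‖w‖ < R ^ q) : w ^ ((q : ℂ)⁻¹) ∈ sec q R := by
  have hq0 : (0 : ℝ) < q := by exact_mod_cast Nat.pos_of_ne_zero hq
  have h1 : (w ^ ((q : ℂ)⁻¹)) ^ q = w := Complex.cpow_nat_inv_pow w hq
  refine ⟨?_, ?_, ?_⟩
  · rw [mem_ball_zero_iff]
    have h2 : ‖w ^ ((q : ℂ)⁻¹)‖ ^ q < R ^ q := by rw [← norm_pow, h1]; exact hwR
    exact lt_of_pow_lt_pow_left₀ q hR.le h2
  · intro h0
    rw [h0, zero_pow hq] at h1
    exact hw h1.symm
  · have h3 : (w ^ ((q : ℂ)⁻¹)).arg = w.arg / q := by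
      rw [Complex.cpow_def_of_ne_zero hw, Complex.arg_exp]
      have e1 : (Complex.log w * (q : ℂ)⁻¹).im = w.arg / q := by
        rw [show ((q : ℂ)⁻¹) = (((q : ℝ)⁻¹ : ℝ) : ℂ) by push_cast; rfl, Complex.im_mul_ofReal,
          Complex.log_im]
        rfl
      rw [e1]
      rw [toIocMod_eq_self]
      have h4 := Complex.neg_pi_lt_arg w
      have h5 := Complex.arg_le_pi w
      have hq1 : (1 : ℝ) ≤ q := by exact_mod_cast Nat.one_le_iff_ne_zero.2 hq
      constructor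
      · rw [lt_div_iff₀ hq0]
        nlinarith [Real.pi_pos]
      · rw [div_le_iff₀ hq0]
        nlinarith [Real.pi_pos]
    rw [h3]
    have h4 := Complex.neg_pi_lt_arg w
    have h5 := Complex.arg_le_pi w
    constructor
    · rw [← neg_div]
      gcongr
    · gcongr

theorem sec_image {q : ℕ} (hq : q ≠ 0) {R : ℝ} (hR : 0 < R) :
    (fun z : ℂ => z ^ q) '' sec q R = ball 0 (R ^ q) \ {0} := by
  ext w
  constructor
  · rintro ⟨z, hz, rfl⟩
    have h1 := hz.1
    rw [mem_ball_zero_iff] at h1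
    refine ⟨?_, pow_ne_zero _ hz.2.1⟩
    rw [mem_ball_zero_iff, norm_pow]
    exact pow_lt_pow_left₀ h1 (norm_nonneg _) hq
  · rintro ⟨h1, h2⟩
    rw [mem_ball_zero_iff] at h1
    exact ⟨_, root_mem hq hR h2 h1, Complex.cpow_nat_inv_pow w hq⟩

theorem det_mul (c : ℂ) : ((ContinuousLinearMap.smulRight (1 : ℂ →L[ℂ] ℂ) c).restrictScalars ℝ).det =
    ‖c‖ ^ 2 := by
  have h1 : (((ContinuousLinearMap.smulRight (1 : ℂ →L[ℂ] ℂ) c).restrictScalars ℝ : ℂ →L[ℝ] ℂ) :
      ℂ →ₗ[ℝ] ℂ) = ((ContinuousLinearMap.smulRight (1 : ℂ →L[ℂ] ℂ) c : ℂ →L[ℂ] ℂ) :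
      ℂ →ₗ[ℂ] ℂ).restrictScalars ℝ := rfl
  rw [ContinuousLinearMap.det, h1, LinearMap.det_restrictScalars]
  have h2 : LinearMap.det ((ContinuousLinearMap.smulRight (1 : ℂ →L[ℂ] ℂ) c : ℂ →L[ℂ] ℂ) :
      ℂ →ₗ[ℂ] ℂ) = c := by
    rw [LinearMap.det_ring]
    simp
  rw [h2, Algebra.norm_complex_apply, Complex.normSq_eq_norm_sq]

theorem pow_fderiv (q : ℕ) (z : ℂ) : HasFDerivAt (fun z : ℂ => z ^ q)
    ((ContinuousLinearMap.smulRight (1 : ℂ →L[ℂ] ℂ)
      ((q : ℂ) * z ^ (q - 1))).restrictScalars ℝ) z :=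
  (hasDerivAt_pow q z).hasFDerivAt.restrictScalars ℝ

theorem sec_int {q : ℕ} (hq : q ≠ 0) {R : ℝ} (hR : 0 < R) (h : ℂ → ℝ) :
    ∫ z in sec q R, ‖(q : ℂ) * z ^ (q - 1)‖ ^ 2 * h (z ^ q) = ∫ t in ball 0 (R ^ q), h t := by
  have h1 := integral_image_eq_integral_abs_det_fderiv_smul (volume : Measure ℂ)
    (sec_meas q R) (fun z _ => (pow_fderiv q z).hasFDerivWithinAt) (sec_inj hq R) h
  rw [sec_image hq hR] at h1
  have h2 : ∫ t in ball 0 (R ^ q), h t = ∫ t in ball 0 (R ^ q) \ {0}, h t := by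
    apply setIntegral_congr_set
    have : (({0} : Set ℂ)) =ᵐ[volume] (∅ : Set ℂ) := by
      rw [ae_eq_empty]
      simp
    have h3 := (ae_eq_refl (ball (0 : ℂ) (R ^ q)) (μ := volume)).diff this
    simpa using h3.symm
  rw [h2, h1]
  refine setIntegral_congr_fun (sec_meas q R) fun z _ => ?_
  simp only [det_mul, smul_eq_mul]
  rw [abs_of_nonneg (by positivity)]

theorem rot_mp {w : ℂ} (hw : ‖w‖ = 1) : MeasurePreserving (fun z : ℂ => w * z) volume volume := by
  have h1 := (rotation (⟨w, mem_sphere_zero_iff_norm.2 hw⟩ : Circle)).measurePreserving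
  exact h1

theorem rot_emb {w : ℂ} (hw : w ≠ 0) : MeasurableEmbedding (fun z : ℂ => w * z) :=
  (Homeomorph.mulLeft₀ w hw).measurableEmbedding

/-- power substitution -/
theorem cov_pow {q : ℕ} (hq : q ≠ 0) {R : ℝ} (hR : 0 < R) (h : ℂ → ℝ) :
    ∫ z in ball 0 R, ‖(q : ℂ) * z ^ (q - 1)‖ ^ 2 * h (z ^ q) = q * ∫ t in ball 0 (R ^ q), h t := by
  classical
  set G : ℂ → ℝ := fun z => ‖(q : ℂ) * z ^ (q - 1)‖ ^ 2 * h (z ^ q) with hG
  set T : Finset ℂ := Polynomial.nthRootsFinset q (1 : ℂ) with hT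
  have hq0 : 0 < q := Nat.pos_of_ne_zero hq
  have hroot : ∀ w ∈ T, w ^ q = 1 := fun w hw => (Polynomial.mem_nthRootsFinset hq0 1).1 hw
  have hne : ∀ w ∈ T, w ≠ 0 := by
    intro w hw h0
    have := hroot w hw
    rw [h0, zero_pow hq] at this
    exact zero_ne_one this
  have hnorm : ∀ w ∈ T, ‖w‖ = 1 := by
    intro w hw
    have h1 : ‖w‖ ^ q = 1 := by rw [← norm_pow, hroot w hw, norm_one]
    exact (pow_eq_one_iff_of_nonneg (norm_nonneg _) hq).1 h1
  have hGw : ∀ w ∈ T, ∀ z, G (w * z) = G z := by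
    intro w hw z
    simp only [hG]
    rw [mul_pow, mul_pow, hroot w hw, one_mul]
    congr 2
    rw [norm_mul, norm_mul, norm_mul, norm_pow w, hnorm w hw, one_pow, one_mul]
  set S : ℂ → Set ℂ := fun w => (fun z : ℂ => w * z) ⁻¹' sec q R with hS
  have hSm : ∀ w, MeasurableSet (S w) := fun w =>
    (measurable_const.mul measurable_id) (sec_meas q R)
  have hSint : ∀ w ∈ T, ∫ z in S w, G z = ∫ z in sec q R, G z := by
    intro w hw
    have h1 := (rot_mp (hnorm w hw)).setIntegral_preimage_emb (rot_emb (hne w hw)) G (sec q R)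
    rw [← h1]
    exact setIntegral_congr_fun (hSm w) fun z _ => (hGw w hw z).symm
  have hun : ball (0 : ℂ) R \ {0} = ⋃ w ∈ T, S w := by
    ext z
    simp only [mem_iUnion, exists_prop]
    constructor
    · rintro ⟨h1, h2⟩
      rw [mem_singleton_iff] at h2
      rw [mem_ball_zero_iff] at h1
      have h3 : ‖z ^ q‖ < R ^ q := by
        rw [norm_pow]
        exact pow_lt_pow_left₀ h1 (norm_nonneg _) hq
      have h4 := root_mem hq hR (pow_ne_zero q h2) h3
      refine ⟨(z ^ q) ^ ((q : ℂ)⁻¹) / z, ?_, ?_⟩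
      · rw [hT, Polynomial.mem_nthRootsFinset hq0, div_pow, Complex.cpow_nat_inv_pow _ hq,
          div_self (pow_ne_zero q h2)]
      · change (z ^ q) ^ ((q : ℂ)⁻¹) / z * z ∈ sec q R
        rwa [div_mul_cancel₀ _ h2]
    · rintro ⟨w, hw, hz⟩
      have h1 : w * z ∈ sec q R := hz
      have h2 := h1.1
      rw [mem_ball_zero_iff, norm_mul, hnorm w hw, one_mul] at h2
      refine ⟨by rwa [mem_ball_zero_iff], ?_⟩
      intro h3
      rw [mem_singleton_iff] at h3
      exact h1.2.1 (by rw [h3, mul_zero])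
  have hdisj : Set.Pairwise (T : Set ℂ) (Function.onFun Disjoint S) := by
    intro w hw w' hw' hww
    change Disjoint (S w) (S w')
    rw [Set.disjoint_left]
    intro z hz hz'
    have h1 : w * z ∈ sec q R := hz
    have h2 : w' * z ∈ sec q R := hz'
    have h3 : (w * z) ^ q = (w' * z) ^ q := by
      rw [mul_pow, mul_pow, hroot w hw, hroot w' hw']
    have h4 := sec_inj hq R h1 h2 h3
    have hz0 : z ≠ 0 := by
      rintro rfl
      exact h1.2.1 (mul_zero w)
    exact hww (mul_right_cancel₀ hz0 h4)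
  have hcard : T.card = q := (Complex.isPrimitiveRoot_exp q hq).card_nthRootsFinset
  have hball : ∫ z in ball 0 R, G z = ∫ z in ball 0 R \ {0}, G z := by
    apply setIntegral_congr_set
    have : (({0} : Set ℂ)) =ᵐ[volume] (∅ : Set ℂ) := by
      rw [ae_eq_empty]
      simp
    have h3 := (ae_eq_refl (ball (0 : ℂ) R) (μ := volume)).diff this
    simpa using h3.symm
  rw [hball, ← sec_int hq hR h]
  by_cases hint : IntegrableOn G (sec q R)
  · rw [hun, integral_biUnion_finset T (fun w _ => hSm w) hdisj]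
    · rw [Finset.sum_congr rfl hSint, Finset.sum_const, hcard, nsmul_eq_mul]
    · intro w hw
      have h1 : IntegrableOn (G ∘ fun z : ℂ => w * z) (S w) :=
        ((rot_mp (hnorm w hw)).integrableOn_comp_preimage (rot_emb (hne w hw))).2 hint
      exact h1.congr_fun (fun z _ => hGw w hw z) (hSm w)
  · rw [integral_undef hint, integral_undef, mul_zero]
    intro h1
    apply hint
    exact IntegrableOn.mono_set (t := ball (0 : ℂ) R \ {0}) h1 fun z hz => ⟨hz.1, hz.2.1⟩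

end Vale.Agent.P247.H663.LWA
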