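import Vale.Agent.P247.H663.LWA.Plug
import Vale.Agent.P247.H710.LWId

/-!
# P247, stage 2, layer C: the local contribution (`LW_statement`)
-/

open scoped ContDiff Topology
open Set MeasureTheory Filter Metric Asymptotics Polynomial

noncomputable section

namespace Vale.Agent.P247.H663.LWA

open Vale.Agent.P247.H74 Vale.Agent.P247.H74.CE Vale.Agent.P247.H574 Vale.Agent.P247.H58.LW
open Vale.Agent.P247.H558.SH

theorem int : INT_statement := by
  intro D hG x a b hab u v hu hv hu0 hfar q q' K hq hq' hK Φ Ψ hΦ hΨ hΦ0 hΨ0 lam hlam hΨd hΦK hΨK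
  exact H710.LWI.INT hG hab hu hv hu0 hfar hq hq' hK hΦ hΦ0 hΦK hΨ hΨ0 hlam hΨd hΨK

/-- `LW`: the local contribution is nonnegative, and it vanishes only for one immersed branch
with winding number zero -/
theorem LW : LW_statement := LW_of_INT int

end Vale.Agent.P247.H663.LWA
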