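import Vale.Agent.P247.H663.LWA.Sta

/-!
# P247, stage 2, layer C: final assembly of `LW`
-/

open scoped ContDiff Topology
open Set MeasureTheory Filter Metric Asymptotics Polynomial

noncomputable section

namespace Vale.Agent.P247.H663.LWA

open Vale.Agent.P247.H74 Vale.Agent.P247.H74.CE Vale.Agent.P247.H574 Vale.Agent.P247.H58.LW
open Vale.Agent.P247.H558.SH

theorem c2_eq (D : Data) (x a b y : R4) : c2 D x a b y = p2 D x a b y := by
  rw [p2_apply, c2]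

theorem c2_push {D : Data} {x a b : R4} (hab : Om D x a b ≠ 0) (y y' : R4) (δ : ℝ) (ζ : ℂ) :
    c2 D x a b (y + δ • cm D x ζ b - y') = c2 D x a b (y - y') + (δ : ℂ) * ζ := by
  have e1 : y + δ • cm D x ζ b - y' = (y - y') + δ • cm D x ζ b := by abel
  rw [c2_eq, c2_eq, e1, map_add, map_smul, p2_b D x a b hab]
  simp

/-- a sphere condition from a neighbourhood condition -/
theorem ev_sphere {P : ℂ → Prop} (h : ∀ᶠ z in 𝓝 (0 : ℂ), P z) :
    ∀ᶠ r in 𝓝[>] (0 : ℝ), ∀ z ∈ sphere (0 : ℂ) r, P z := by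
  obtain ⟨ε, hε, h1⟩ := Metric.eventually_nhds_iff_ball.1 h
  filter_upwards [Ioo_mem_nhdsGT hε] with r hr z hz
  apply h1
  rw [mem_sphere_zero_iff_norm] at hz
  rw [mem_ball_zero_iff, hz]
  exact hr.2

theorem wind_const_mul {f : ℂ → ℂ} {c : ℂ} {r : ℝ} {m : ℤ} (h : HasWinding f c r m) {A : ℂ}
    (hA : A ≠ 0) : HasWinding (fun z => A * f z) c r m := by
  obtain ⟨g, h1, h2⟩ := h
  refine ⟨fun z => Complex.log A + g z, continuousOn_const.add h1, fun z hz => ?_⟩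
  simp only
  rw [h2 z hz, Complex.exp_add, Complex.exp_log hA]
  ring

theorem wind_congr {f g : ℂ → ℂ} {c : ℂ} {r : ℝ} {m : ℤ} (h : HasWinding f c r m)
    (hfg : ∀ z ∈ sphere c r, g z = f z) : HasWinding g c r m := by
  obtain ⟨G, h1, h2⟩ := h
  exact ⟨G, h1, fun z hz => by rw [hfg z hz, h2 z hz]⟩

/-- the derivative bound at the origin included -/
theorem lead_deriv {D : Data} {u : ℂ → R4} {k : ℕ} {a b : R4} (h : LeadL D u k a b) :
    ∃ C : ℝ, ∀ᶠ z in 𝓝 (0 : ℂ),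
      ‖fderiv ℝ u z 1 - cm D (u 0) (k * z ^ (k - 1)) a‖ ≤ C * ‖z‖ ^ k := by
  set F : ℂ → R4 := fun z => fderiv ℝ u z 1 - cm D (u 0) (k * z ^ (k - 1)) a with hF
  have hc : ContinuousAt F 0 := by
    have h1 : ContinuousAt (fderiv ℝ u) 0 :=
      (h.c1.fderiv_right (m := 0) (by norm_num)).continuousAt
    have h2 : ContinuousAt (fun z => fderiv ℝ u z 1) 0 := h1.clm_apply continuousAt_const
    have h3 : ContinuousAt (fun z : ℂ => (cmB D (u 0)).flip a (k * z ^ (k - 1))) 0 := by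
      fun_prop
    have h4 := h2.sub h3
    have e : F = fun z => fderiv ℝ u z 1 - (cmB D (u 0)).flip a (k * z ^ (k - 1)) := by
      funext z
      simp [hF, cmB_apply]
    rw [e]
    exact h4
  have hlim : Tendsto F (𝓝[≠] 0) (𝓝 0) := h.rem1.tendsto (by have := h.hk; omega)
  have h0 : F 0 = 0 := tendsto_nhds_unique (hc.tendsto.mono_left nhdsWithin_le_nhds) hlim
  obtain ⟨C, hC⟩ := h.rem1.bd.bound
  refine ⟨C, ?_⟩
  rw [eventually_nhdsWithin_iff] at hC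
  filter_upwards [hC] with z hz
  rcases eq_or_ne z 0 with rfl | hz0
  · change ‖F 0‖ ≤ _
    rw [h0, norm_zero, norm_zero, zero_pow h.k0, mul_zero]
  · have := hz hz0
    rw [zpow_natCast, norm_pow, norm_norm] at this
    exact this

theorem lead_imm {D : Data} {u : ℂ → R4} {k : ℕ} {a b : R4} (h : LeadL D u k a b) (hk : k = 1) :
    fderiv ℝ u 0 1 ≠ 0 := by
  subst hk
  obtain ⟨C, hC⟩ := lead_deriv h
  exact H520.Wc.imm_of_one h.hab hC

section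

variable {D : Data} {S : Set R4} {x : R4} {N : ℕ} {u : Fin N → ℂ → R4} {ε : ℝ} {b : R4}

/-- branches stay away from `x` -/
theorem brs_away (hB : Brs D S x N u ε) (l : Fin N) : ∀ r > 0, ∃ c > 0,
    ∀ s ∈ ball (0 : ℂ) 1, r ≤ ‖s‖ → c ≤ dist (u l s) x := by
  intro r hr
  have hc : IsCompact (closedBall (0 : ℂ) 1 \ ball 0 r) :=
    (isCompact_closedBall _ _).diff isOpen_ball
  have hsub : closedBall (0 : ℂ) 1 \ ball 0 r ⊆ ball 0 2 := fun z hz =>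
    closedBall_subset_ball (by norm_num) hz.1
  have hcont : ContinuousOn (fun z => dist (u l z) x) (closedBall (0 : ℂ) 1 \ ball 0 r) :=
    (continuous_id.dist continuous_const).comp_continuousOn
      ((hB.disc l).smooth.continuousOn.mono hsub)
  rcases (closedBall (0 : ℂ) 1 \ ball 0 r).eq_empty_or_nonempty with he | hne
  · refine ⟨1, one_pos, fun z hz hrz => ?_⟩
    exfalso
    have : z ∈ closedBall (0 : ℂ) 1 \ ball 0 r :=
      ⟨ball_subset_closedBall hz, by rw [mem_ball_zero_iff, not_lt]; exact hrz⟩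
    rw [he] at this
    exact this
  · obtain ⟨z₀, hz₀, hmin⟩ := hc.exists_isMinOn hne hcont
    refine ⟨dist (u l z₀) x, ?_, fun z hz hrz => ?_⟩
    · apply dist_pos.2
      intro h
      have h1 := hB.zero l
      rw [← h1] at h
      have h3 : z₀ ≠ 0 := by
        intro h0
        rw [h0] at hz₀
        exact hz₀.2 (mem_ball_self hr)
      rcases hB.inj l l z₀ (hsub hz₀) 0 (by simp) h with h2 | h2
      · exact h3 h2.2
      · exact h3 h2.1
    · exact hmin ⟨ball_subset_closedBall hz, by rw [mem_ball_zero_iff, not_lt]; exact hrz⟩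

theorem vert_smooth (D : Data) (x b : R4) {v : R4 → ℂ} (hv : ContDiff ℝ ∞ v) :
    ContDiff ℝ ∞ (fun y => cm D x (v y) b) := by
  have : (fun y => cm D x (v y) b) = fun y => (cmB D x).flip b (v y) := by
    funext y
    simp [cmB_apply]
  rw [this]
  exact ((cmB D x).flip b).contDiff.comp hv

theorem vert_Om (D : Data) (x b : R4) (ζ : ℂ) : Om D x (cm D x ζ b) b = 0 := by
  rw [cm_Om, Om_self, mul_zero]

/-- the diagonal terms -/
theorem diag (hI : INT_statement) (hR : ROOT_statement) (hS : SB_statement) (hG : Good D)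
    (hB : Brs D S x N u ε) (hb : ∀ l, Trans D x (u l) b) (l : Fin N) {k : ℕ} {a : R4}
    (hL : LeadL D (u l) k a b) :
    ∀ᶠ ρ in 𝓝[>] (0 : ℝ), ∀ v : R4 → ℂ, ContDiff ℝ ∞ v → ∀ o : ℤ,
      HasWinding (fun t => Om D (u l t) (fderiv ℝ (u l) t 1) (cm D x (v (u l t)) b)) 0 ρ o →
      ∃ Nu : ℝ, (o : ℝ) + ((k : ℝ) - 1) ^ 2 ≤ Nu ∧ ∀ᶠ δ in 𝓝[>] (0 : ℝ), ∃ ε₀ > 0,
        ∀ f : R4 → ℝ, Continuous f → tsupport f ⊆ ball 0 ε₀ →
          Iuv (u l) (u l) (fun y => cm D x (v y) b) δ ρ f = Nu * ∫ y, f y := by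
  classical
  have hx : u l 0 = x := hB.zero l
  have hab : Om D x a b ≠ 0 := by rw [← hx]; exact hL.hab
  have hk : 1 ≤ k := hL.hk
  obtain ⟨lam, Φ, hlam, hΦ1, hΦ0, hΦd, hΦ⟩ := hR D (u l) k a a b hL hL.hab
  rw [hx] at hΦ
  have hΦ' : ∀ᶠ z in 𝓝 (0 : ℂ), c1 D x a b (u l (z ^ 1) - x) = Φ z ^ k :=
    Eventually.of_forall fun z => by rw [pow_one]; exact hΦ z
  obtain ⟨ψ, hψ1, hψ0, hψl, hψr, hint⟩ := hI D hG x a b hab (u l) (u l) (hB.disc l).smooth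
    (hB.disc l).smooth hx (brs_away hB l) 1 1 k le_rfl le_rfl hk Φ Φ hΦ1 hΦ1 hΦ0 hΦ0 lam hlam hΦd
    hΦ' hΦ'
  -- windings of the sheet differences
  have hsb : ∀ w : ℂ, ∃ m : ℕ, w ∈ nthRootsFinset k (1 : ℂ) → w ≠ 1 → k + 1 ≤ m ∧
      ∀ᶠ r in 𝓝[>] (0 : ℝ),
        HasWinding (fun z => c2 D x a b (u l (z ^ 1) - u l (ψ (w * Φ z) ^ 1))) 0 r m := by
    intro w
    by_cases hw : w ∈ nthRootsFinset k (1 : ℂ) ∧ w ≠ 1
    · obtain ⟨m, -, h2, h3⟩ := hS D S x N u ε hB b hb a hab l l k k a a hL hL 1 1 k le_rfl le_rfl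
        (mul_one k) (mul_one k) lam lam Φ Φ ψ hlam hlam hΦ1 hΦ0 hΦd hΦ' hΦ1 hΦ0 hΦd hΦ' hψ1 hψ0
        hψl hψr w ((Polynomial.mem_nthRootsFinset hk 1).1 hw.1) (Or.inr ⟨rfl, rfl, rfl, rfl, hw.2⟩)
      exact ⟨m, fun _ _ => ⟨h2 rfl, h3⟩⟩
    · exact ⟨0, fun h1 h2 => absurd ⟨h1, h2⟩ hw⟩
  choose mw hmw using hsb
  have hall : ∀ᶠ r in 𝓝[>] (0 : ℝ), ∀ w ∈ nthRootsFinset k (1 : ℂ), w ≠ 1 →
      HasWinding (fun z => c2 D x a b (u l (z ^ 1) - u l (ψ (w * Φ z) ^ 1))) 0 r (mw w) := by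
    rw [Filter.eventually_all_finset]
    intro w hw
    by_cases hw1 : w = 1
    · exact Eventually.of_forall fun r h => absurd hw1 h
    · exact ((hmw w hw hw1).2).mono fun r h _ => h
  obtain ⟨C, hC⟩ := lead_deriv hL
  rw [hx] at hC
  have hcu : ∀ᶠ z in 𝓝 (0 : ℂ), ContinuousAt (u l) z := by
    filter_upwards [ball_mem_nhds (0 : ℂ) (show (0 : ℝ) < 2 by norm_num)] with z hz
    exact (hB.disc l).smooth.continuousOn.continuousAt (isOpen_ball.mem_nhds hz)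
  have hwo := H520.Wc.wind_o hx hcu hab hC hk
  filter_upwards [hint, hall, hwo, ev_sphere hψl, ev_sphere hcu, self_mem_nhdsWithin] with ρ
    h1 h2 h3 h4 h5 hρ v hv o ho
  have hρ0 : (0 : ℝ) < ρ := hρ
  have hvo := h3 v hv.continuous o ho
  set m : ℂ → ℤ := fun w => if w = 1 then o - ((k : ℤ) - 1) else mw w with hm
  refine ⟨((∑ w ∈ nthRootsFinset k (1 : ℂ), m w : ℤ) : ℝ), ?_, ?_⟩
  · have hsum := H520.Wc.roots_sum (K := k) hk m ((k : ℤ) + 1) (by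
      intro w hw hw1
      simp only [hm, if_neg hw1]
      exact_mod_cast (hmw w hw hw1).1)
    have e1 : m 1 = o - ((k : ℤ) - 1) := by simp [hm]
    rw [e1] at hsum
    have hsum' : (o : ℝ) - ((k : ℝ) - 1) + ((k : ℝ) - 1) * ((k : ℝ) + 1) ≤
        ((∑ w ∈ nthRootsFinset k (1 : ℂ), m w : ℤ) : ℝ) := by exact_mod_cast hsum
    have hk' : (1 : ℝ) ≤ k := by exact_mod_cast hk
    nlinarith
  · have hcv : ContinuousOn (fun z => v (u l z)) (sphere (0 : ℂ) ρ) := fun z hz =>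
      (hv.continuous.continuousAt.comp (h5 z hz)).continuousWithinAt
    have hpert : ∀ᶠ δ : ℝ in 𝓝 (0 : ℝ), ∀ w ∈ nthRootsFinset k (1 : ℂ), w ≠ 1 →
        HasWinding (fun z => c2 D x a b (u l (z ^ 1) - u l (ψ (w * Φ z) ^ 1)) +
          (δ : ℂ) * v (u l z)) 0 ρ (mw w) := by
      rw [Filter.eventually_all_finset]
      intro w hw
      by_cases hw1 : w = 1
      · exact Eventually.of_forall fun r h => absurd hw1 h
      · exact (H520.Wc.wind_pert hρ0 (h2 w hw hw1) hcv).mono fun r h _ => h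
    filter_upwards [h1 (fun y => cm D x (v y) b) (vert_smooth D x b hv)
      (fun y => vert_Om D x b (v y)), nhdsWithin_le_nhds hpert, self_mem_nhdsWithin] with δ
      h6 h7 hδ
    have hδ0 : (0 : ℝ) < δ := hδ
    obtain ⟨ε₀, hε₀, h8⟩ := h6 m (by
      intro w hw
      by_cases hw1 : w = 1
      · subst hw1
        simp only [hm, if_true]
        have h9 := wind_const_mul hvo (A := (δ : ℂ)) (by exact_mod_cast hδ0.ne')
        refine wind_congr h9 fun z hz => ?_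
        simp only [push, pow_one, one_mul]
        rw [c2_push hab, h4 z hz, sub_self]
        have : c2 D x a b 0 = 0 := by rw [c2_eq, map_zero]
        rw [this, zero_add]
      · simp only [hm, if_neg hw1]
        refine wind_congr (h7 w hw hw1) fun z _ => ?_
        simp only [push, pow_one]
        rw [c2_push hab])
    refine ⟨ε₀, hε₀, fun f hf hfs => ?_⟩
    have h9 := h8 f hf hfs
    simpa using h9

/-- the tendency of roots of the radius -/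
theorem root_tendsto {q : ℕ} (hq : 1 ≤ q) :
    Tendsto (fun ρ : ℝ => ρ ^ ((q : ℝ)⁻¹)) (𝓝[>] 0) (𝓝[>] 0) := by
  have hq0 : (0 : ℝ) < (q : ℝ)⁻¹ := by positivity
  rw [tendsto_nhdsWithin_iff]
  constructor
  · have h1 : ContinuousAt (fun ρ : ℝ => ρ ^ ((q : ℝ)⁻¹)) 0 :=
      Real.continuousAt_rpow_const 0 _ (Or.inr hq0.le)
    have h2 := h1.tendsto.mono_left (nhdsWithin_le_nhds (s := Ioi (0 : ℝ)))
    rwa [Real.zero_rpow hq0.ne'] at h2
  · filter_upwards [self_mem_nhdsWithin] with ρ hρ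
    exact Real.rpow_pos_of_pos hρ _

theorem root_pow {q : ℕ} (hq : 1 ≤ q) {ρ : ℝ} (hρ : 0 < ρ) : (ρ ^ ((q : ℝ)⁻¹)) ^ q = ρ := by
  rw [← Real.rpow_natCast, ← Real.rpow_mul hρ.le, inv_mul_cancel₀, Real.rpow_one]
  have : (0 : ℝ) < q := by exact_mod_cast hq
  exact this.ne'

/-- the off-diagonal terms -/
theorem offd (hI : INT_statement) (hR : ROOT_statement) (hP : PW_statement) (hS : SB_statement)
    (hG : Good D) (hB : Brs D S x N u ε) (hb : ∀ l, Trans D x (u l) b) {l j : Fin N}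
    (hlj : l ≠ j) {k k' : ℕ} {a₁ a₂ : R4} (hL : LeadL D (u l) k a₁ b)
    (hL' : LeadL D (u j) k' a₂ b) :
    ∀ᶠ ρ in 𝓝[>] (0 : ℝ), ∃ Nu : ℝ, 0 < Nu ∧ ∀ v : R4 → ℂ, ContDiff ℝ ∞ v →
      ∀ᶠ δ in 𝓝[>] (0 : ℝ), ∃ ε₀ > 0, ∀ f : R4 → ℝ, Continuous f → tsupport f ⊆ ball 0 ε₀ →
          Iuv (u l) (u j) (fun y => cm D x (v y) b) δ ρ f = Nu * ∫ y, f y := by
  classical
  have hx : u l 0 = x := hB.zero l
  have hx' : u j 0 = x := hB.zero j
  set a := a₂ with ha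
  have hab : Om D x a b ≠ 0 := by rw [← hx']; exact hL'.hab
  have hk : 1 ≤ k := hL.hk
  have hk' : 1 ≤ k' := hL'.hk
  have hU := hP D (u l) k a₁ b hL k' hk'
  have hW := hP D (u j) k' a₂ b hL' k hk
  have hU0 : u l (0 ^ k') = x := by rw [zero_pow (by omega), hx]
  have hW0 : u j (0 ^ k) = x := by rw [zero_pow (by omega), hx']
  obtain ⟨lam, Φ, hlam, hΦ1, hΦ0, hΦd, hΦ⟩ := hR D (fun z => u l (z ^ k')) (k * k') a₁ a b hU
    (by simp only [hU0]; exact hab)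
  obtain ⟨mu, Ψ, hmu, hΨ1, hΨ0, hΨd, hΨ⟩ := hR D (fun z => u j (z ^ k)) (k' * k) a₂ a b hW
    (by simp only [hW0]; exact hab)
  simp only [hU0] at hΦ
  simp only [hW0] at hΨ
  have hK : 1 ≤ k * k' := Nat.one_le_iff_ne_zero.2 (by positivity)
  have hΦ' : ∀ᶠ z in 𝓝 (0 : ℂ), c1 D x a b (u l (z ^ k') - x) = Φ z ^ (k * k') :=
    Eventually.of_forall fun z => hΦ z
  have hΨ' : ∀ᶠ z in 𝓝 (0 : ℂ), c1 D x a b (u j (z ^ k) - x) = Ψ z ^ (k * k') :=
    Eventually.of_forall fun z => by rw [mul_comm k k']; exact hΨ z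
  obtain ⟨ψ, hψ1, hψ0, hψl, hψr, hint⟩ := hI D hG x a b hab (u l) (u j) (hB.disc l).smooth
    (hB.disc j).smooth hx (brs_away hB j) k' k (k * k') hk' hk hK Φ Ψ hΦ1 hΨ1 hΦ0 hΨ0 mu hmu hΨd
    hΦ' hΨ'
  have hsb : ∀ w : ℂ, ∃ m : ℕ, w ∈ nthRootsFinset (k * k') (1 : ℂ) → k * k' ≤ m ∧
      ∀ᶠ r in 𝓝[>] (0 : ℝ),
        HasWinding (fun z => c2 D x a b (u l (z ^ k') - u j (ψ (w * Φ z) ^ k))) 0 r m := by
    intro w
    by_cases hw : w ∈ nthRootsFinset (k * k') (1 : ℂ)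
    · obtain ⟨m, h2, -, h3⟩ := hS D S x N u ε hB b hb a hab l j k k' a₁ a₂ hL hL' k' k (k * k')
        hk' hk rfl (mul_comm k' k) lam mu Φ Ψ ψ hlam hmu hΦ1 hΦ0 hΦd hΦ' hΨ1 hΨ0 hΨd hΨ' hψ1 hψ0
        hψl hψr w ((Polynomial.mem_nthRootsFinset hK 1).1 hw) (Or.inl hlj)
      exact ⟨m, fun _ => ⟨h2, h3⟩⟩
    · exact ⟨0, fun h1 => absurd h1 hw⟩
  choose mw hmw using hsb
  have hall : ∀ᶠ r in 𝓝[>] (0 : ℝ), ∀ w ∈ nthRootsFinset (k * k') (1 : ℂ),
      HasWinding (fun z => c2 D x a b (u l (z ^ k') - u j (ψ (w * Φ z) ^ k))) 0 r (mw w) := by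
    rw [Filter.eventually_all_finset]
    intro w hw
    exact (hmw w hw).2
  have hcu : ∀ᶠ z in 𝓝 (0 : ℂ), ContinuousAt (fun z => u l (z ^ k')) z := by
    have ht : Tendsto (fun z : ℂ => z ^ k') (𝓝 0) (𝓝 0) := by
      have : Continuous (fun z : ℂ => z ^ k') := by fun_prop
      have h0 := this.tendsto 0
      rwa [zero_pow (by omega : k' ≠ 0)] at h0
    filter_upwards [ht.eventually (ball_mem_nhds (0 : ℂ) (show (0 : ℝ) < 2 by norm_num))] with z hz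
    have h1 : ContinuousAt (u l) (z ^ k') :=
      (hB.disc l).smooth.continuousOn.continuousAt (isOpen_ball.mem_nhds hz)
    exact ContinuousAt.comp (f := fun z : ℂ => z ^ k') (g := u l) h1 (by fun_prop)
  have hmain : ∀ᶠ r in 𝓝[>] (0 : ℝ), ∃ Nu : ℝ, 0 < Nu ∧ ∀ v : R4 → ℂ, ContDiff ℝ ∞ v →
      ∀ᶠ δ in 𝓝[>] (0 : ℝ), ∃ ε₀ > 0, ∀ f : R4 → ℝ, Continuous f → tsupport f ⊆ ball 0 ε₀ →
          Iuv (u l) (u j) (fun y => cm D x (v y) b) δ (r ^ k') f = Nu * ∫ y, f y := by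
    filter_upwards [hint, hall, ev_sphere hcu, self_mem_nhdsWithin] with r h1 h2 h5 hr
    have hr0 : (0 : ℝ) < r := hr
    have hqq : (0 : ℝ) < (k' : ℝ) * k := by
      have e1 : (0 : ℝ) < k := by exact_mod_cast hk
      have e2 : (0 : ℝ) < k' := by exact_mod_cast hk'
      positivity
    set T : ℝ := ((∑ w ∈ nthRootsFinset (k * k') (1 : ℂ), ((mw w : ℕ) : ℤ) : ℤ) : ℝ) with hT
    have hTpos : 0 < T := by
      have hsum := H520.Wc.roots_sum' (K := k * k') hK (fun w => ((mw w : ℕ) : ℤ))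
        (((k * k' : ℕ) : ℤ)) (by
          intro w hw
          exact_mod_cast (hmw w hw).1)
      have h6 : (0 : ℤ) < ((k * k' : ℕ) : ℤ) := by exact_mod_cast hK
      have h7 : (0 : ℤ) < ∑ w ∈ nthRootsFinset (k * k') (1 : ℂ), ((mw w : ℕ) : ℤ) :=
        lt_of_lt_of_le (mul_pos h6 h6) hsum
      rw [hT]
      exact_mod_cast h7
    refine ⟨T / ((k' : ℝ) * k), by positivity, fun v hv => ?_⟩
    have hcv : ContinuousOn (fun z => v (u l (z ^ k'))) (sphere (0 : ℂ) r) := fun z hz =>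
      (ContinuousAt.comp (f := fun z : ℂ => u l (z ^ k')) (g := v) hv.continuous.continuousAt
        (h5 z hz)).continuousWithinAt
    have hpert : ∀ᶠ δ : ℝ in 𝓝 (0 : ℝ), ∀ w ∈ nthRootsFinset (k * k') (1 : ℂ),
        HasWinding (fun z => c2 D x a b (u l (z ^ k') - u j (ψ (w * Φ z) ^ k)) +
          (δ : ℂ) * v (u l (z ^ k'))) 0 r (mw w) := by
      rw [Filter.eventually_all_finset]
      intro w hw
      exact H520.Wc.wind_pert hr0 (h2 w hw) hcv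
    filter_upwards [h1 (fun y => cm D x (v y) b) (vert_smooth D x b hv)
      (fun y => vert_Om D x b (v y)), nhdsWithin_le_nhds hpert] with δ h6 h7
    obtain ⟨ε₀, hε₀, h8⟩ := h6 (fun w => ((mw w : ℕ) : ℤ)) (by
      intro w hw
      refine wind_congr (h7 w hw) fun z _ => ?_
      simp only [push]
      rw [c2_push hab])
    refine ⟨ε₀, hε₀, fun f hf hfs => ?_⟩
    have h9 := h8 f hf hfs
    rw [div_mul_eq_mul_div, eq_div_iff hqq.ne']
    rw [← h9]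
    ring
  filter_upwards [(root_tendsto hk').eventually hmain, self_mem_nhdsWithin] with ρ h1 hρ
  rwa [root_pow hk' hρ] at h1

end

theorem LW_of (hI : INT_statement) (hLd : LEAD_statement) (hR : ROOT_statement)
    (hP : PW_statement) (hS : SB_statement) : LW_statement := by
  classical
  intro D hG S x N u ε hB b hb
  choose k a hL using hLd D S x N u ε hB b hb
  have h1 : ∀ᶠ ρ in 𝓝[>] (0 : ℝ), ∀ l, ∀ v : R4 → ℂ, ContDiff ℝ ∞ v → ∀ o : ℤ,
      HasWinding (fun t => Om D (u l t) (fderiv ℝ (u l) t 1) (cm D x (v (u l t)) b)) 0 ρ o →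
      ∃ Nu : ℝ, (o : ℝ) + ((k l : ℝ) - 1) ^ 2 ≤ Nu ∧ ∀ᶠ δ in 𝓝[>] (0 : ℝ), ∃ ε₀ > 0,
        ∀ f : R4 → ℝ, Continuous f → tsupport f ⊆ ball 0 ε₀ →
          Iuv (u l) (u l) (fun y => cm D x (v y) b) δ ρ f = Nu * ∫ y, f y :=
    eventually_all.2 fun l => diag hI hR hS hG hB hb l (hL l)
  have h2 : ∀ᶠ ρ in 𝓝[>] (0 : ℝ), ∀ l j, l ≠ j → ∃ Nu : ℝ, 0 < Nu ∧ ∀ v : R4 → ℂ,
      ContDiff ℝ ∞ v → ∀ᶠ δ in 𝓝[>] (0 : ℝ), ∃ ε₀ > 0, ∀ f : R4 → ℝ, Continuous f →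
        tsupport f ⊆ ball 0 ε₀ →
          Iuv (u l) (u j) (fun y => cm D x (v y) b) δ ρ f = Nu * ∫ y, f y := by
    refine eventually_all.2 fun l => eventually_all.2 fun j => ?_
    by_cases hlj : l = j
    · exact Eventually.of_forall fun ρ h => absurd hlj h
    · exact (offd hI hR hP hS hG hB hb hlj (hL l) (hL j)).mono fun ρ h _ => h
  filter_upwards [h1, h2] with ρ h1 h2 μ hμ v hv o ho hw
  have h3 : ∀ l j, ∃ Nu : ℝ, (l = j → (o l : ℝ) + ((k l : ℝ) - 1) ^ 2 ≤ Nu) ∧ (l ≠ j → 0 < Nu) ∧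
      ∀ᶠ δ in 𝓝[>] (0 : ℝ), ∃ ε₀ > 0, ∀ f : R4 → ℝ, Continuous f → tsupport f ⊆ ball 0 ε₀ →
        Iuv (u l) (u j) (fun y => cm D x (v y) b) δ ρ f = Nu * ∫ y, f y := by
    intro l j
    by_cases hlj : l = j
    · subst hlj
      obtain ⟨Nu, h4, h5⟩ := h1 l v hv (o l) (hw l)
      exact ⟨Nu, fun _ => h4, fun h => absurd rfl h, h5⟩
    · obtain ⟨Nu, h4, h5⟩ := h2 l j hlj
      exact ⟨Nu, fun h => absurd h hlj, fun _ => h4, h5 v hv⟩
  choose Nu h4 h5 h6 using h3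
  obtain ⟨h7, h8⟩ := H520.Wc.numbers hB.posN μ hμ k (fun l => (hL l).hk) o ho Nu
    (fun l => h4 l l rfl) (fun l j => h5 l j)
  refine ⟨∑ l, ∑ j, (μ l : ℝ) * (μ j : ℝ) * Nu l j, h7, fun h => ?_, ?_⟩
  · obtain ⟨h9, h10, h11⟩ := h8 h
    exact ⟨h9, fun l => lead_imm (hL l) (h10 l), h11⟩
  · have h9 : ∀ᶠ δ in 𝓝[>] (0 : ℝ), ∀ l j, ∃ ε₀ > 0, ∀ f : R4 → ℝ, Continuous f →
        tsupport f ⊆ ball 0 ε₀ →
        Iuv (u l) (u j) (fun y => cm D x (v y) b) δ ρ f = Nu l j * ∫ y, f y :=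
      eventually_all.2 fun l => eventually_all.2 fun j => h6 l j
    filter_upwards [h9] with δ h10
    have h11 : ∀ᶠ e in 𝓝[>] (0 : ℝ), ∀ l j, ∀ f : R4 → ℝ, Continuous f →
        tsupport f ⊆ ball 0 e →
        Iuv (u l) (u j) (fun y => cm D x (v y) b) δ ρ f = Nu l j * ∫ y, f y := by
      refine eventually_all.2 fun l => eventually_all.2 fun j => ?_
      obtain ⟨e, he, h12⟩ := h10 l j
      filter_upwards [Ioo_mem_nhdsGT he] with e' he' f hf hfs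
      exact h12 f hf (hfs.trans (ball_subset_ball he'.2.le))
    obtain ⟨e, h12, he⟩ := (h11.and self_mem_nhdsWithin).exists
    refine ⟨e, he, fun f hf hfs => ?_⟩
    rw [Finset.sum_mul]
    refine Finset.sum_congr rfl fun l _ => ?_
    rw [Finset.sum_mul]
    refine Finset.sum_congr rfl fun j _ => ?_
    rw [h12 l j f hf hfs]
    ring

end Vale.Agent.P247.H663.LWA
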