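import Vale.Agent.P247.H663.LWA.Main
import Vale.Agent.P247.H558.SH.Fin

/-!
# P247, stage 2, layer C: `LW` from `INT`
-/

open scoped ContDiff Topology
open Set MeasureTheory Filter Metric Asymptotics Polynomial

noncomputable section

namespace Vale.Agent.P247.H663.LWA

open Vale.Agent.P247.H74 Vale.Agent.P247.H74.CE Vale.Agent.P247.H574 Vale.Agent.P247.H58.LW
open Vale.Agent.P247.H558.SH

theorem lead : LEAD_statement := fun _ _ _ _ _ _ hB _ hb l => brs_lead hB hb l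

theorem root : ROOT_statement := fun _ _ _ _ _ _ h hab => h.root hab

theorem pw : PW_statement := fun _ _ _ _ _ h _ hq => h.pow hq

theorem sb : SB_statement := by
  intro D S x N u ε hB b _ a hab l j k k' a₁ a₂ hu hv q q' K hq hq' hK hK' lam mu Φ Ψ ψ hlam _
    hΦ hΦ0 hΦd hΦK _ hΨ0 _ hΨK hψ hψ0 _ hψΨ w hw hlj
  obtain ⟨m, h1, h2, -, h3⟩ := sheet_brs hB hab hu hv hq hq' hK hK' hlam hΦ hΦ0 hΦd hΦK hΨ0 hΨK
    hψ hψ0 hψΨ hw hlj
  exact ⟨m, h1, h2, h3⟩

/-- `LW` from `INT` -/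
theorem LW_of_INT (hI : INT_statement) : LW_statement := LW_of hI lead root pw sb

end Vale.Agent.P247.H663.LWA
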