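import Vale.Agent.P247.H558.SH.LeadL
import Vale.Agent.P247.H520.Wc

/-!
# P247, stage 2, layer C: interfaces of the final assembly of `LW`
-/

open scoped ContDiff Topology
open Set MeasureTheory Filter Metric Asymptotics Polynomial

noncomputable section

namespace Vale.Agent.P247.H663.LWA

open Vale.Agent.P247.H74 Vale.Agent.P247.H574 Vale.Agent.P247.H58.LW Vale.Agent.P247.H558.SH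

/-- first coordinate in the frame `a`, `b` at `x` -/
def c1 (D : Data) (x a b y : R4) : ℂ := (Om D x a b)⁻¹ * Om D x y b

/-- second coordinate in the frame `a`, `b` at `x` -/
def c2 (D : Data) (x a b y : R4) : ℂ := (Om D x a b)⁻¹ * Om D x a y

/-- `INT`: from the local integral to winding numbers. -/
def INT_statement : Prop := ∀ (D : Data), Good D → ∀ (x a b : R4), Om D x a b ≠ 0 →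
  ∀ (u v : ℂ → R4), ContDiffOn ℝ ∞ u (ball 0 2) → ContDiffOn ℝ ∞ v (ball 0 2) → u 0 = x →
  (∀ r > 0, ∃ c > 0, ∀ s ∈ ball (0 : ℂ) 1, r ≤ ‖s‖ → c ≤ dist (v s) x) →
  ∀ q q' K : ℕ, 1 ≤ q → 1 ≤ q' → 1 ≤ K →
  ∀ Φ Ψ : ℂ → ℂ, ContDiffAt ℝ 1 Φ 0 → ContDiffAt ℝ 1 Ψ 0 → Φ 0 = 0 → Ψ 0 = 0 →
  ∀ lam : ℂ, lam ≠ 0 → HasFDerivAt Ψ (lam • (ContinuousLinearMap.id ℝ ℂ)) 0 →
  (∀ᶠ z in 𝓝 (0 : ℂ), c1 D x a b (u (z ^ q) - x) = Φ z ^ K) →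
  (∀ᶠ z in 𝓝 (0 : ℂ), c1 D x a b (v (z ^ q') - x) = Ψ z ^ K) →
  ∃ ψ : ℂ → ℂ, ContDiffAt ℝ 1 ψ 0 ∧ ψ 0 = 0 ∧ (∀ᶠ z in 𝓝 (0 : ℂ), ψ (Ψ z) = z) ∧
    (∀ᶠ c in 𝓝 (0 : ℂ), Ψ (ψ c) = c) ∧
    ∀ᶠ R in 𝓝[>] (0 : ℝ), ∀ V : R4 → R4, ContDiff ℝ ∞ V → (∀ y, Om D x (V y) b = 0) →
      ∀ᶠ δ in 𝓝[>] (0 : ℝ), ∀ m : ℂ → ℤ,
      (∀ w ∈ nthRootsFinset K (1 : ℂ),
        HasWinding (fun z => c2 D x a b (push u V δ (z ^ q) - v (ψ (w * Φ z) ^ q'))) 0 R (m w)) →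
      ∃ ε₀ > 0, ∀ f : R4 → ℝ, Continuous f → tsupport f ⊆ ball 0 ε₀ →
        ((q : ℝ) * q') * Iuv u v V δ (R ^ q) f =
          ((∑ w ∈ nthRootsFinset K (1 : ℂ), m w : ℤ) : ℝ) * ∫ y, f y

/-- `LEAD`: leading terms of the branches. -/
def LEAD_statement : Prop := ∀ (D : Data) (K : Set R4) (x : R4) (N : ℕ) (u : Fin N → ℂ → R4)
  (ε : ℝ), Brs D K x N u ε → ∀ b : R4, (∀ l, Trans D x (u l) b) → ∀ l, ∃ k a, LeadL D (u l) k a b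

/-- `ROOT`: root coordinates. -/
def ROOT_statement : Prop := ∀ (D : Data) (u : ℂ → R4) (k : ℕ) (a₁ a b : R4), LeadL D u k a₁ b →
  Om D (u 0) a b ≠ 0 → ∃ (lam : ℂ) (Φ : ℂ → ℂ), lam ≠ 0 ∧ ContDiffAt ℝ 1 Φ 0 ∧ Φ 0 = 0 ∧
    HasFDerivAt Φ (lam • (ContinuousLinearMap.id ℝ ℂ)) 0 ∧
    ∀ z, (Om D (u 0) a b)⁻¹ * Om D (u 0) (u z - u 0) b = Φ z ^ k

/-- `PW`: powers. -/
def PW_statement : Prop := ∀ (D : Data) (u : ℂ → R4) (k : ℕ) (a b : R4), LeadL D u k a b →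
  ∀ q : ℕ, 1 ≤ q → LeadL D (fun z => u (z ^ q)) (k * q) a b

/-- `SB`: winding numbers of the sheet differences. -/
def SB_statement : Prop := ∀ (D : Data) (S : Set R4) (x : R4) (N : ℕ) (u : Fin N → ℂ → R4)
  (ε : ℝ), Brs D S x N u ε → ∀ b : R4, (∀ l, Trans D x (u l) b) → ∀ a : R4, Om D x a b ≠ 0 →
  ∀ (l j : Fin N) (k k' : ℕ) (a₁ a₂ : R4), LeadL D (u l) k a₁ b → LeadL D (u j) k' a₂ b →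
  ∀ (q q' K : ℕ), 1 ≤ q → 1 ≤ q' → k * q = K → k' * q' = K →
  ∀ (lam mu : ℂ) (Φ Ψ ψ : ℂ → ℂ), lam ≠ 0 → mu ≠ 0 → ContDiffAt ℝ 1 Φ 0 → Φ 0 = 0 →
    HasFDerivAt Φ (lam • (ContinuousLinearMap.id ℝ ℂ)) 0 →
    (∀ᶠ z in 𝓝 (0 : ℂ), c1 D x a b (u l (z ^ q) - x) = Φ z ^ K) →
    ContDiffAt ℝ 1 Ψ 0 → Ψ 0 = 0 → HasFDerivAt Ψ (mu • (ContinuousLinearMap.id ℝ ℂ)) 0 →
    (∀ᶠ z in 𝓝 (0 : ℂ), c1 D x a b (u j (z ^ q') - x) = Ψ z ^ K) →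
    ContDiffAt ℝ 1 ψ 0 → ψ 0 = 0 → (∀ᶠ z in 𝓝 (0 : ℂ), ψ (Ψ z) = z) →
    (∀ᶠ c in 𝓝 (0 : ℂ), Ψ (ψ c) = c) →
  ∀ w : ℂ, w ^ K = 1 → (l ≠ j ∨ (l = j ∧ q = 1 ∧ q' = 1 ∧ Φ = Ψ ∧ w ≠ 1)) →
  ∃ m : ℕ, K ≤ m ∧ (l = j → K + 1 ≤ m) ∧ ∀ᶠ r in 𝓝[>] (0 : ℝ),
    HasWinding (fun z => c2 D x a b (u l (z ^ q) - u j (ψ (w * Φ z) ^ q'))) 0 r m

end Vale.Agent.P247.H663.LWA
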